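import Vale.Agent.P078.AllMasa.Defect.Model
import Vale.Agent.P078.AllMasa.Cov.Rows

/-! Operators on continuous functions paired with their lifts: both have the same diagonal. -/

namespace Vale.Agent.P078.AllMasa.Lift

set_option linter.unusedSectionVars false

open Filter Topology MeasureTheory
open Vale.Agent.P078.Tracial
open scoped ENNReal InnerProductSpace ComplexOrder

variable {X : Type} [TopologicalSpace X] [CompactSpace X] [T2Space X] [TotallyDisconnectedSpace X]
variable [MeasurableSpace X] [BorelSpace X]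
variable {μ : Measure X} [IsFiniteMeasure μ]

/-- The operator of a word only depends on its map and its weight. -/
theorem op_congr {w v : Word μ} (hp : w.p = v.p) (hh : ∀ z, w.h z = v.h z) : w.op = v.op := by
  refine ContinuousLinearMap.ext fun f => Lp.ext ?_
  refine (w.coe_op f).trans (EventuallyEq.trans ?_ (v.coe_op f).symm)
  refine Eventually.of_forall fun z => ?_
  simp [Word.fn, hp, hh]

variable (μ) in
/-- Pairs of an operator on functions and its lift. -/
noncomputable def repSpan :
    Submodule ℝ (Module.End ℝ C(X, ℝ) × (H μ →L[ℂ] H μ)) :=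
  Submodule.span ℝ {O | ∃ (g : C(X, ℝ)) (p : PMap X) (hp : p.NS μ),
    O = (mulC g * p.Tl, (gWord μ g p hp).op)}

theorem mulC_mem_rep (f : C(X, ℝ)) :
    (mulC f, (xWord μ f).op) ∈ repSpan μ := by
  classical
  refine Submodule.subset_span ⟨f, PMap.idOn Set.univ isClopen_univ, PMap.NS.idOn _ _, ?_⟩
  refine Prod.ext (LinearMap.ext fun u => ?_) (op_congr rfl fun z => rfl)
  ext x
  simp [PMap.T, PMap.d_apply, PMap.idOn]

theorem one_mem_rep : (1 : Module.End ℝ C(X, ℝ) × (H μ →L[ℂ] H μ)) ∈ repSpan μ := by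
  have e : (1 : Module.End ℝ C(X, ℝ) × (H μ →L[ℂ] H μ)) = (mulC 1, (xWord μ 1).op) := by
    refine Prod.ext (LinearMap.ext fun u => by simp) ?_
    rw [Prod.snd_one, ← op_one (μ := μ)]
    exact op_congr rfl fun z => rfl
  rw [e]
  exact mulC_mem_rep 1

theorem mul_mem_rep {O O' : Module.End ℝ C(X, ℝ) × (H μ →L[ℂ] H μ)} (hO : O ∈ repSpan μ)
    (hO' : O' ∈ repSpan μ) : O * O' ∈ repSpan μ := by
  induction hO using Submodule.span_induction with
  | mem O hO =>
    induction hO' using Submodule.span_induction with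
    | mem O' hO' =>
      classical
      obtain ⟨g, p, hp, rfl⟩ := hO
      obtain ⟨h, q, hq, rfl⟩ := hO'
      refine Submodule.subset_span ⟨g * h.comp p.τ, p.comp q, hp.comp hq, ?_⟩
      refine Prod.ext (LinearMap.ext fun f => ?_) ?_
      · ext x
        simp only [Prod.fst_mul, Module.End.mul_apply, mulC_apply, PMap.Tl_apply, PMap.T,
          ContinuousMap.mul_apply, ContinuousMap.comp_apply, PMap.d_apply]
        have hd : x ∈ (p.comp q).dom ↔ x ∈ p.dom ∧ p.τ x ∈ q.dom := Iff.rfl
        by_cases h1 : x ∈ p.dom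
        · by_cases h2 : p.τ x ∈ q.dom
          · rw [if_pos h1, if_pos h2, if_pos (hd.2 ⟨h1, h2⟩)]
            show _ = _ * (1 * f (q.τ (p.τ x)))
            ring
          · rw [if_pos h1, if_neg h2, if_neg fun hc => h2 (hd.1 hc).2]; ring
        · rw [if_neg h1, if_neg fun hc => h1 (hd.1 hc).1]; ring
      · rw [Prod.snd_mul, Word.op_mul]
        exact op_congr rfl fun z => rfl
    | zero => simp
    | add x y _ _ hx hy => rw [mul_add]; exact (repSpan μ).add_mem hx hy
    | smul c x _ hx => rw [mul_smul_comm]; exact (repSpan μ).smul_mem c hx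
  | zero => simp
  | add x y _ _ hx hy => rw [add_mul]; exact (repSpan μ).add_mem hx hy
  | smul c x _ hx => rw [smul_mul_assoc]; exact (repSpan μ).smul_mem c hx

theorem pow_mem_rep {O : Module.End ℝ C(X, ℝ) × (H μ →L[ℂ] H μ)} (hO : O ∈ repSpan μ) (i : ℕ) :
    O ^ i ∈ repSpan μ := by
  induction i with
  | zero => rw [pow_zero]; exact one_mem_rep
  | succ i ih => rw [pow_succ]; exact mul_mem_rep ih hO

/-- The sum of the diagonal entries of an operator on functions. -/
noncomputable def tauC (μ : Measure X) (π : DiscreteQuotient X) (O : Module.End ℝ C(X, ℝ)) : ℝ :=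
  ∑ j : π, ∫ x, cellFn π j x * O (cellFn π j) x ∂μ

theorem integrable_cont (f : C(X, ℝ)) : Integrable (fun x => f x) μ :=
  Integrable.of_bound f.continuous.aestronglyMeasurable ‖f‖
    (Eventually.of_forall fun x => f.norm_coe_le_norm x)

theorem integrable_cell_mul (π : DiscreteQuotient X) (j : π) (f : C(X, ℝ)) :
    Integrable (fun x => cellFn π j x * f x) μ :=
  integrable_cont (cellFn π j * f)

theorem tauC_add (π : DiscreteQuotient X) (A B : Module.End ℝ C(X, ℝ)) :
    tauC μ π (A + B) = tauC μ π A + tauC μ π B := by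
  simp only [tauC, ← Finset.sum_add_distrib, LinearMap.add_apply, ContinuousMap.add_apply, mul_add]
  exact Finset.sum_congr rfl fun j _ =>
    integral_add (integrable_cell_mul π j _) (integrable_cell_mul π j _)

theorem tauC_smul (π : DiscreteQuotient X) (a : ℝ) (A : Module.End ℝ C(X, ℝ)) :
    tauC μ π (a • A) = a * tauC μ π A := by
  simp only [tauC, Finset.mul_sum, LinearMap.smul_apply, ContinuousMap.smul_apply, smul_eq_mul,
    mul_left_comm _ a, integral_const_mul]

theorem tendsto_tauC [μ.Regular] (g : C(X, ℝ)) (p : PMap X) :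
    Tendsto (fun π => tauC μ π (mulC g * p.Tl)) atBot (𝓝 (∫ x in p.fix, g x ∂μ)) := by
  classical
  set S : DiscreteQuotient X → Set X := fun π => p.dom ∩ {x | π.proj x = π.proj (p.τ x)} with hS
  have hSm : ∀ π, MeasurableSet (S π) := fun π => p.dom_clopen.isClosed.measurableSet.inter
    (isClosed_eq π.proj_continuous (π.proj_continuous.comp p.τ.continuous)).measurableSet
  have hF : MeasurableSet p.fix := p.fix_isClosed.measurableSet
  have e : ∀ π, tauC μ π (mulC g * p.Tl) = ∫ x in S π, g x ∂μ := fun π => by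
    rw [tauC, ← integral_finsetSum _ fun j _ => integrable_cell_mul π j _,
      ← integral_indicator (hSm π)]
    refine integral_congr_ae (Eventually.of_forall fun x => ?_)
    simp only [Module.End.mul_apply, mulC_apply, PMap.Tl_apply, PMap.T, ContinuousMap.mul_apply,
      ContinuousMap.comp_apply, PMap.d_apply, cellFn_apply, ite_mul, one_mul, zero_mul, mul_ite,
      mul_zero, mul_one, Finset.sum_ite_eq, Finset.mem_univ, if_true]
    by_cases h1 : x ∈ p.dom
    · by_cases h2 : π.proj x = π.proj (p.τ x)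
      · simp [hS, h1, h2]
      · simp [hS, h1, h2]
    · simp [hS, h1]
  simp only [e]
  rw [Metric.tendsto_nhds]
  intro ε hε
  set C := ‖g‖ + 1
  have hC : 0 < C := by positivity
  have hD : MeasurableSet (p.dom \ p.fix) := p.dom_clopen.isClosed.measurableSet.diff hF
  obtain ⟨K, hKD, hK, hKm⟩ := hD.exists_isCompact_sdiff_lt (μ := μ) (measure_ne_top μ _)
    (ε := ENNReal.ofReal (ε / C)) (by simpa using div_pos hε hC)
  filter_upwards [eventually_sep hK hKD] with π hπ
  have hsub : p.fix ⊆ S π := fun x hx => ⟨hx.1, show π.proj x = _ by rw [hx.2]⟩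
  have hsmall : S π \ p.fix ⊆ (p.dom \ p.fix) \ K := fun x hx =>
    ⟨⟨hx.1.1, hx.2⟩, fun hk => hπ x hk hx.1.2⟩
  rw [dist_eq_norm, ← setIntegral_sdiff hF (integrable_cont g).integrableOn hsub]
  refine (norm_setIntegral_le_of_norm_le_const (measure_lt_top μ _)
    (C := C) fun x _ => (g.norm_coe_le_norm x).trans (by simp [C])).trans_lt ?_
  have h2 : μ.real (S π \ p.fix) < ε / C := by
    refine (measureReal_mono hsmall).trans_lt ?_
    rw [measureReal_def, ← ENNReal.toReal_ofReal (div_pos hε hC).le]
    exact (ENNReal.toReal_lt_toReal (measure_ne_top _ _) ENNReal.ofReal_ne_top).2 hKm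
  calc C * μ.real (S π \ p.fix) < C * (ε / C) := mul_lt_mul_of_pos_left h2 hC
    _ = ε := by field_simp

theorem dlim_one (g : C(X, ℝ)) (p : PMap X) (hp : p.NS μ) :
    dlim (Win.one μ) (gWord μ g p hp) = ∫ x in p.fix, g x ∂μ := by
  have hs : (Win.one μ).s ∩ (gWord μ g p hp).p.fix ×ˢ Set.univ = p.fix ×ˢ Set.Ioc (0 : ℝ) 1 := by
    ext z
    simp [Win.one, gWord, and_comm]
  rw [dlim, hs, nu, ← Measure.prod_restrict, Measure.restrict_restrict measurableSet_Ioc,
    Set.inter_eq_left.2 Set.Ioc_subset_Ioi_self]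
  show ∫ z : X × ℝ, g z.1 ∂_ = _
  rw [integral_fun_fst (fun x => g x), measureReal_restrict_apply_univ, Real.volume_real_Ioc]
  simp

/-- Both diagonals of a pair agree in the limit. -/
theorem tendsto_rep [μ.Regular] {O : Module.End ℝ C(X, ℝ) × (H μ →L[ℂ] H μ)}
    (hO : O ∈ repSpan μ) :
    Tendsto (fun π => (tauC μ π O.1 : ℂ) - diag (Win.one μ) π O.2) atBot (𝓝 0) := by
  induction hO using Submodule.span_induction with
  | mem O hO =>
    obtain ⟨g, p, hp, rfl⟩ := hO
    have h1 := (Complex.continuous_ofReal.tendsto _).comp (tendsto_tauC (μ := μ) g p)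
    have h2 := tendsto_diag_op (Win.one μ) (gWord μ g p hp)
    rw [dlim_one] at h2
    simpa using h1.sub h2
  | zero => simp [tauC, diag_zero]
  | add x y _ _ hx hy =>
    have := hx.add hy
    rw [add_zero] at this
    refine this.congr fun π => ?_
    simp only [Prod.fst_add, Prod.snd_add, tauC_add, diag_add, Complex.ofReal_add]
    ring
  | smul a x _ hx =>
    have := hx.const_mul (a : ℂ)
    rw [mul_zero] at this
    refine this.congr fun π => ?_
    have e : a • x.2 = (a : ℂ) • x.2 := (algebraMap_smul ℂ a x.2).symm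
    simp only [Prod.smul_fst, Prod.smul_snd, tauC_smul, e, diag_smul, Complex.ofReal_mul]
    ring

end Vale.Agent.P078.AllMasa.Lift
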